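import Vale.Agent.P251.St.Result
import Vale.Agent.P261Z.T3.ExAll
import Vale.Agent.P261Z.Top.All

/-!
# P261: the `K(n)`-local sphere is of finite type, for all primes and all heights

There is a stable homotopy category with a suspension spectrum functor; in each of them Bousfield
localizations exist, and for every prime `p` and every height `n ≥ 1` a Morava `K`-theory `K(n)`
exists, and for every `K(n)` and every `K(n)`-localization `S ⟶ Y` of the sphere spectrum each
homotopy group `π_t Y` carries exactly one `ℤ_[p]`-module structure and is finitely generated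
over `ℤ_[p]`.

The statement uses only the definitions of `P251/T/Axioms`, `P251/St/Base`, `P251/St/Chrom`,
`P257/H702/Statement`, `P257/H702/StatementP` and `P261Z/T3/St`.
-/

namespace Vale.Agent.Results.P261.FiniteType

open Vale.Agent.P251.St Vale.Agent.P251.St.SHCat Vale.Agent.P261Z.St

theorem result : (∃ T : SHCat, Nonempty (Susp T)) ∧ ∀ (T : SHCat) (S : Susp T),
    (∀ E X : T.C, ∃ (Y : T.C) (f : Hom X Y), IsLoc E f) ∧
    ∀ (p n : ℕ) [Fact p.Prime], 1 ≤ n → (∃ K : T.C, IsK S p n K) ∧
      ∀ K : T.C, IsK S p n K → ∀ (Y : T.C) (f : Hom T.one Y), IsLoc K f → ∀ t : ℤ,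
        ∃ m : Module ℤ_[p] (Hom (sphere T t) Y),
          (∀ m' : Module ℤ_[p] (Hom (sphere T t) Y), m' = m) ∧
            @Module.Finite ℤ_[p] (Hom (sphere T t) Y) _ _ m :=
  ⟨nonempty_susp, fun T S => ⟨exists_isLoc T, fun _ _ hp hn =>
    ⟨Vale.Agent.P261Z.T3.exists_isK S hp.out hn, _root_.P261.Top.ftAll hn T S⟩⟩⟩

end Vale.Agent.Results.P261.FiniteType
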